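import Vale.Agent.P129BJ.Sound

/-!
# The completeness theorem
-/

namespace Vale.Agent.P129B.Syn

open Vale.Agent.P323.Z Vale.Agent.P323.Z.Fml

/-! ### Renamings -/

theorem liftR_comp {n m l : ℕ} (r : Fin n → Fin m) (s : Fin m → Fin l) :
    liftR s ∘ liftR r = liftR (s ∘ r) := by
  funext i
  refine Fin.lastCases ?_ (fun j => ?_) i <;> simp

theorem rename_rename {n : ℕ} (φ : Fml n) : ∀ {m l : ℕ} (r : Fin n → Fin m) (s : Fin m → Fin l),
    (φ.rename r).rename s = φ.rename (s ∘ r) := by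
  induction φ with
  | bot => intros; rfl
  | eq i j => intros; rfl
  | mem i j => intros; rfl
  | imp φ ψ ih₁ ih₂ => intro m l r s; simp only [rename, ih₁, ih₂]
  | all φ ih => intro m l r s; simp only [rename, ih, liftR_comp]

theorem rename_id {n : ℕ} (φ : Fml n) : ∀ r : Fin n → Fin n, (∀ i, r i = i) → φ.rename r = φ := by
  induction φ with
  | bot => intros; rfl
  | eq i j => intro r h; simp only [rename, h]
  | mem i j => intro r h; simp only [rename, h]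
  | imp φ ψ ih₁ ih₂ => intro r h; simp only [rename, ih₁ r h, ih₂ r h]
  | all φ ih =>
    intro r h
    rw [rename, ih]
    intro i
    refine Fin.lastCases ?_ (fun j => ?_) i <;> simp [h]

theorem lift_rename {n m : ℕ} (φ : Fml n) (r : Fin n → Fin m) :
    (lift φ).rename (liftR r) = lift (φ.rename r) := by
  simp only [lift, rename_rename]
  congr 1
  funext i
  simp

theorem inst_rename {n m : ℕ} (φ : Fml (n + 1)) (i : Fin n) (r : Fin n → Fin m) :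
    (inst φ i).rename r = inst (φ.rename (liftR r)) (r i) := by
  simp only [inst, rename_rename]
  congr 1
  funext k
  refine Fin.lastCases ?_ (fun j => ?_) k <;> simp

variable {T : Set (Fml 0)}

/-- Renaming of variables and weakening. -/
theorem Prf.ren {n : ℕ} {Γ : List (Fml n)} {φ : Fml n} (h : Prf T Γ φ) :
    ∀ {m : ℕ} (r : Fin n → Fin m) (Δ : List (Fml m)), (∀ ψ ∈ Γ, ψ.rename r ∈ Δ) →
      Prf T Δ (φ.rename r) := by
  have key : ∀ {n m : ℕ} {Γ : List (Fml n)} {r : Fin n → Fin m} {Δ : List (Fml m)},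
      (∀ ψ ∈ Γ, ψ.rename r ∈ Δ) → ∀ ψ ∈ Γ.map lift, ψ.rename (liftR r) ∈ Δ.map lift := by
    intro n m Γ r Δ H ψ hψ
    obtain ⟨χ, h1, rfl⟩ := List.mem_map.1 hψ
    rw [lift_rename]
    exact List.mem_map_of_mem (H χ h1)
  have key2 : ∀ {n m : ℕ} {Γ : List (Fml n)} {r : Fin n → Fin m} {Δ : List (Fml m)} (φ : Fml n),
      (∀ ψ ∈ Γ, ψ.rename r ∈ Δ) → ∀ ψ ∈ φ :: Γ, ψ.rename r ∈ φ.rename r :: Δ :=
    fun φ H => List.forall_mem_cons.2
      ⟨List.mem_cons_self, fun ψ hψ => List.mem_cons_of_mem _ (H ψ hψ)⟩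
  induction h with
  | ax h =>
    intro m r Δ _
    rw [rename_rename, Subsingleton.elim (r ∘ Fin.elim0) Fin.elim0]
    exact .ax h
  | hyp h => exact fun r Δ H => .hyp (H _ h)
  | impI _ ih => exact fun r Δ H => .impI (ih r _ (key2 _ H))
  | impE _ _ ih₁ ih₂ => exact fun r Δ H => .impE (ih₁ r Δ H) (ih₂ r Δ H)
  | raa _ ih => exact fun r Δ H => .raa (ih r _ (key2 _ H))
  | allI _ ih => exact fun r Δ H => .allI (ih _ _ (key H))
  | allE i _ ih => exact fun r Δ H => inst_rename _ i r ▸ .allE _ (ih r Δ H)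
  | refl i => exact fun r Δ _ => .refl _
  | subst φ i j _ _ ih₁ ih₂ =>
    intro m r Δ H
    rw [inst_rename]
    exact .subst _ (r i) (r j) (ih₁ r Δ H) (inst_rename φ i r ▸ ih₂ r Δ H)
  | nonempty _ ih => exact fun r Δ H => .nonempty (ih _ _ (key H))

theorem Prf.weak {n : ℕ} {Γ Δ : List (Fml n)} {φ : Fml n} (h : Prf T Γ φ) (H : Γ ⊆ Δ) :
    Prf T Δ φ := by
  have := h.ren id Δ fun ψ hψ => by rw [rename_id ψ id fun _ => rfl]; exact H hψ
  rwa [rename_id φ id fun _ => rfl] at this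

/-! ### Finite stages -/

/-- a number of variables and a list of formulas in these variables -/
structure St : Type where
  n : ℕ
  l : List (Fml n)

instance : Preorder St where
  le s t := ∃ h : s.1 ≤ t.1, ∀ ψ ∈ s.2, ψ.rename (Fin.castLE h) ∈ t.2
  le_refl s := ⟨le_rfl, fun ψ h => (rename_id ψ (Fin.castLE le_rfl) fun _ => rfl).symm ▸ h⟩
  le_trans s t u := fun ⟨h1, h2⟩ ⟨h3, h4⟩ => ⟨h1.trans h3, fun ψ h => by
    have := h4 _ (h2 ψ h)
    rwa [rename_rename] at this⟩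

variable (T) in
/-- `φ(v)` is provable at the stage `s` -/
def Pv (s : St) {m : ℕ} (φ : Fml m) (v : Fin m → ℕ) : Prop :=
  ∃ h : ∀ i, v i < s.1, Prf T s.2 (φ.rename fun i => ⟨v i, h i⟩)

theorem Pv.mono {s t : St} {m : ℕ} {φ : Fml m} {v : Fin m → ℕ} (h : Pv T s φ v) (H : s ≤ t) :
    Pv T t φ v := by
  obtain ⟨h1, h2⟩ := h
  obtain ⟨h3, h4⟩ := H
  have := h2.ren _ _ h4
  rw [rename_rename] at this
  exact ⟨fun i => (h1 i).trans_le h3, this⟩

theorem exists_big {s : St} (hs : ¬ Prf T s.2 bot) (k : ℕ) :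
    ∃ t, s ≤ t ∧ ¬ Prf T t.2 bot ∧ k ≤ t.1 := by
  induction k with
  | zero => exact ⟨s, le_rfl, hs, Nat.zero_le _⟩
  | succ k ih =>
    obtain ⟨t, h1, h2, h3⟩ := ih
    exact ⟨⟨t.1 + 1, t.2.map lift⟩, h1.trans ⟨Nat.le_succ _, fun ψ h => List.mem_map_of_mem h⟩,
      fun h => h2 h.nonempty, Nat.succ_le_succ h3⟩

theorem exists_big' {s : St} (hs : ¬ Prf T s.2 bot) {m : ℕ} (v : Fin m → ℕ) :
    ∃ t, s ≤ t ∧ ¬ Prf T t.2 bot ∧ ∀ i, v i < t.1 := by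
  obtain ⟨t, h1, h2, h3⟩ := exists_big hs (Finset.univ.sup v + 1)
  exact ⟨t, h1, h2, fun i => (Nat.lt_succ_of_le (Finset.le_sup (Finset.mem_univ i))).trans_le h3⟩

theorem le_cons (t : St) (φ : Fml t.1) : t ≤ (⟨t.1, φ :: t.2⟩ : St) :=
  ⟨le_rfl, fun ψ h => (rename_id ψ (Fin.castLE le_rfl) fun _ => rfl).symm ▸
    List.mem_cons_of_mem _ h⟩

theorem step₁ {s : St} (hs : ¬ Prf T s.2 bot) {m : ℕ} (φ : Fml m) (v : Fin m → ℕ) :
    ∃ t, s ≤ t ∧ ¬ Prf T t.2 bot ∧ (Pv T t φ v ∨ Pv T t (neg φ) v) := by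
  obtain ⟨t, h1, h2, h3⟩ := exists_big' hs v
  by_cases h : Pv T t φ v
  · exact ⟨t, h1, h2, Or.inl h⟩
  · exact ⟨_, h1.trans (le_cons t (neg (φ.rename fun i => ⟨v i, h3 i⟩))), fun k => h ⟨h3, k.raa⟩,
      Or.inr ⟨h3, .hyp List.mem_cons_self⟩⟩

theorem step₂ {s : St} (hs : ¬ Prf T s.2 bot) {m : ℕ} (φ : Fml (m + 1)) (v : Fin m → ℕ) :
    ∃ t, s ≤ t ∧ ¬ Prf T t.2 bot ∧ (Pv T t (all φ) v ∨ ∃ a, Pv T t (neg φ) (Fin.snoc v a)) := by
  obtain ⟨t, h1, h2, h3⟩ := exists_big' hs v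
  by_cases h : Pv T t (all φ) v
  · exact ⟨t, h1, h2, Or.inl h⟩
  · refine ⟨⟨t.1 + 1, neg (φ.rename (liftR fun i => ⟨v i, h3 i⟩)) :: t.2.map lift⟩,
      h1.trans ⟨Nat.le_succ _, fun ψ h => List.mem_cons_of_mem _ (List.mem_map_of_mem h)⟩,
      fun k => h ⟨h3, k.raa.allI⟩, Or.inr ⟨t.1, fun i => ?_, .hyp ?_⟩⟩
    · refine Fin.lastCases ?_ (fun j => ?_) i
      · simp
      · simpa using (h3 j).le
    · refine List.mem_cons.2 (Or.inl (congrArg neg (congrArg (rename · φ) (funext fun i => ?_))))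
      refine Fin.lastCases ?_ (fun j => ?_) i
      · simp [Fin.ext_iff]
      · simp

/-- a code of a formula -/
def enc : ∀ {n : ℕ}, Fml n → ℕ
  | _, .bot => 0
  | _, .eq i j => 4 * Nat.pair i j + 1
  | _, .mem i j => 4 * Nat.pair i j + 2
  | _, .imp φ ψ => 4 * Nat.pair (enc φ) (enc ψ) + 3
  | _, .all φ => 4 * enc φ + 4

theorem enc_inj {n : ℕ} (φ : Fml n) : ∀ ψ : Fml n, enc φ = enc ψ → φ = ψ := by
  induction φ with
  | bot => intro ψ h; cases ψ <;> simp only [enc] at h <;> first | rfl | omega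
  | eq i j =>
    intro ψ h
    cases ψ <;> simp only [enc] at h <;> try omega
    obtain ⟨h1, h2⟩ := Nat.pair_eq_pair.1 (Nat.eq_of_mul_eq_mul_left (by norm_num) (Nat.succ.inj h))
    rw [Fin.ext h1, Fin.ext h2]
  | mem i j =>
    intro ψ h
    cases ψ <;> simp only [enc] at h <;> try omega
    obtain ⟨h1, h2⟩ := Nat.pair_eq_pair.1 (Nat.eq_of_mul_eq_mul_left (by norm_num)
      (Nat.add_right_cancel h))
    rw [Fin.ext h1, Fin.ext h2]
  | imp φ χ ih₁ ih₂ =>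
    intro ψ h
    cases ψ <;> simp only [enc] at h <;> try omega
    obtain ⟨h1, h2⟩ := Nat.pair_eq_pair.1 (Nat.eq_of_mul_eq_mul_left (by norm_num)
      (Nat.add_right_cancel h))
    rw [ih₁ _ h1, ih₂ _ h2]
  | all φ ih =>
    intro ψ h
    cases ψ <;> simp only [enc] at h <;> try omega
    exact congrArg all (ih _ (by omega))

instance (n : ℕ) : Countable (Fml n) :=
  Function.Injective.countable (f := enc) fun φ ψ h => enc_inj φ ψ h

/-- A complete consistent theory with witnesses. -/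
theorem exists_henkin (hT : Con T) : ∃ Tr : ∀ {m : ℕ}, Fml m → (Fin m → ℕ) → Prop,
    (∀ m (v : Fin m → ℕ), ¬ Tr bot v) ∧ (∀ m (φ : Fml m) v, Tr φ v ∨ Tr (neg φ) v) ∧
    (∀ m (φ : Fml (m + 1)) v, Tr (all φ) v ∨ ∃ a, Tr (neg φ) (Fin.snoc v a)) ∧
    (∀ m (φ ψ : Fml m) v, Tr (imp φ ψ) v → Tr φ v → Tr ψ v) ∧
    (∀ m (φ : Fml m) v, Prf T [] φ → Tr φ v) ∧
    ∀ m l (φ : Fml m) (r : Fin m → Fin l) v, Tr (φ.rename r) v ↔ Tr φ (v ∘ r) := by
  obtain ⟨e, he⟩ := @exists_surjective_nat (Σ m, Fml m × Fml (m + 1) × (Fin m → ℕ))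
    ⟨⟨0, bot, bot, Fin.elim0⟩⟩ _
  have step : ∀ (k : ℕ) (s : {s : St // ¬ Prf T s.2 bot}), ∃ t : {s : St // ¬ Prf T s.2 bot},
      s.1 ≤ t.1 ∧ (Pv T t.1 (e k).2.1 (e k).2.2.2 ∨ Pv T t.1 (neg (e k).2.1) (e k).2.2.2) ∧
      (Pv T t.1 (all (e k).2.2.1) (e k).2.2.2 ∨
        ∃ a, Pv T t.1 (neg (e k).2.2.1) (Fin.snoc (e k).2.2.2 a)) := by
    intro k s
    obtain ⟨t, h1, h2, h3⟩ := step₁ s.2 (e k).2.1 (e k).2.2.2
    obtain ⟨u, h4, h5, h6⟩ := step₂ h2 (e k).2.2.1 (e k).2.2.2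
    exact ⟨⟨u, h5⟩, h1.trans h4, h3.imp (·.mono h4) (·.mono h4), h6⟩
  choose f hf using step
  let s : ℕ → {s : St // ¬ Prf T s.2 bot} := fun k => Nat.rec ⟨⟨0, []⟩, hT⟩ f k
  have hs : Monotone fun k => (s k).1 := monotone_nat_of_le_succ fun k => (hf k (s k)).1
  have task : ∀ m (φ : Fml m) (ψ : Fml (m + 1)) (v : Fin m → ℕ), ∃ k,
      (Pv T (s k).1 φ v ∨ Pv T (s k).1 (neg φ) v) ∧
      (Pv T (s k).1 (all ψ) v ∨ ∃ a, Pv T (s k).1 (neg ψ) (Fin.snoc v a)) := by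
    intro m φ ψ v
    obtain ⟨k, hk⟩ := he ⟨m, φ, ψ, v⟩
    have := (hf k (s k)).2
    rw [hk] at this
    exact ⟨k + 1, this⟩
  have big : ∀ m (v : Fin m → ℕ), ∃ k, ∀ i, v i < (s k).1.1 := fun m v =>
    (task m bot bot v).imp fun k hk => hk.1.elim (·.1) (·.1)
  refine ⟨fun φ v => ∃ k, Pv T (s k).1 φ v, fun m v ⟨k, _, h⟩ => (s k).2 h, fun m φ v => ?_,
    fun m φ v => ?_, fun m φ ψ v ⟨k, h1⟩ ⟨l, h2⟩ => ?_, fun m φ v h => ?_, fun m l φ r v => ?_⟩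
  · obtain ⟨k, h, -⟩ := task m φ bot v
    exact h.imp (⟨k, ·⟩) (⟨k, ·⟩)
  · obtain ⟨k, -, h⟩ := task m bot φ v
    exact h.imp (⟨k, ·⟩) fun ⟨a, h⟩ => ⟨a, k, h⟩
  · obtain ⟨h3, h4⟩ := h1.mono (hs (le_max_left k l))
    obtain ⟨_, h5⟩ := h2.mono (hs (le_max_right k l))
    exact ⟨_, h3, h4.impE h5⟩
  · obtain ⟨k, hk⟩ := big m v
    exact ⟨k, hk, h.ren _ _ fun _ h => absurd h List.not_mem_nil⟩
  · constructor
    · rintro ⟨k, h1, h2⟩
      rw [rename_rename] at h2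
      exact ⟨k, fun i => h1 (r i), h2⟩
    · rintro ⟨k, h1⟩
      obtain ⟨k', hk⟩ := big l v
      obtain ⟨_, h2⟩ := h1.mono (hs (le_max_left k k'))
      refine ⟨max k k', fun i => (hk i).trans_le (hs (le_max_right k k')).1, ?_⟩
      rw [rename_rename]
      exact h2

/-- **Completeness**: a consistent theory has a (countable, nonempty) model. -/
theorem exists_model (hT : Con T) : ∃ (M : Type) (E : M → M → Prop), Nonempty M ∧ Countable M ∧
    ∀ ψ ∈ T, ψ.Sat E Fin.elim0 := by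
  obtain ⟨Tr, t1, t2, t3, mp, pr, rn⟩ := exists_henkin hT
  have h0 : ∀ {n : ℕ} {φ : Fml n} {Γ : List (Fml n)}, Prf T (φ :: Γ) φ := .hyp List.mem_cons_self
  have h1 : ∀ {n : ℕ} {φ ψ : Fml n} {Γ : List (Fml n)}, Prf T (ψ :: φ :: Γ) φ :=
    .hyp (List.mem_cons_of_mem _ List.mem_cons_self)
  let R : ℕ → ℕ → Prop := fun a b => Tr (eq 0 1 : Fml 2) ![a, b]
  let Q : ℕ → ℕ → Prop := fun a b => Tr (mem 0 1 : Fml 2) ![a, b]
  have e2 : ∀ {m} (i j : Fin m) (v : Fin m → ℕ), v ∘ ![i, j] = ![v i, v j] := fun i j v =>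
    funext fun k => by fin_cases k <;> rfl
  have hR : ∀ {m} (i j : Fin m) v, Tr (eq i j) v ↔ R (v i) (v j) := fun i j v =>
    (rn 2 _ (eq 0 1) ![i, j] v).trans (by rw [e2])
  have hQ : ∀ {m} (i j : Fin m) v, Tr (mem i j) v ↔ Q (v i) (v j) := fun i j v =>
    (rn 2 _ (mem 0 1) ![i, j] v).trans (by rw [e2])
  have sub : ∀ (φ : Fml 4) (a b c : ℕ), R a b → Tr (inst φ 0) ![a, b, c] →
      Tr (inst φ 1) ![a, b, c] := fun φ a b c h k =>
    mp _ _ _ _ (mp _ _ _ _ (pr _ _ _ (.impI (.impI (.subst φ 0 1 h1 h0))))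
      ((hR 0 1 ![a, b, c]).2 h)) k
  have rfl' : ∀ a, R a a := fun a => (hR 0 0 ![a]).1 (pr _ _ _ (.refl 0))
  have eucl : ∀ a b c, R a b → R a c → R b c := fun a b c h k =>
    (hR 1 2 ![a, b, c]).1 (sub (eq 3 2) a b c h ((hR 0 2 ![a, b, c]).2 k))
  have q1 : ∀ a b c, R a b → Q a c → Q b c := fun a b c h k =>
    (hQ 1 2 ![a, b, c]).1 (sub (mem 3 2) a b c h ((hQ 0 2 ![a, b, c]).2 k))
  have q2 : ∀ a b c, R a b → Q c a → Q c b := fun a b c h k =>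
    (hQ 2 1 ![a, b, c]).1 (sub (mem 2 3) a b c h ((hQ 2 0 ![a, b, c]).2 k))
  let S : Setoid ℕ := ⟨R, rfl', fun h => eucl _ _ _ h (rfl' _),
    fun h k => eucl _ _ _ (eucl _ _ _ h (rfl' _)) k⟩
  let E : Quotient S → Quotient S → Prop := fun x y => ∃ a b, x = ⟦a⟧ ∧ y = ⟦b⟧ ∧ Q a b
  have truth : ∀ {m} (φ : Fml m) (v : Fin m → ℕ), φ.Sat E (Quotient.mk S ∘ v) ↔ Tr φ v := by
    intro m φ
    induction φ with
    | bot => exact fun v => iff_of_false id (t1 _ v)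
    | eq i j => exact fun v => Quotient.eq.trans (hR i j v).symm
    | mem i j =>
      intro v
      rw [hQ]
      exact ⟨fun ⟨a, b, k1, k2, k3⟩ => q1 _ _ _ (Quotient.exact k1.symm)
        (q2 _ _ _ (Quotient.exact k2.symm) k3), fun k => ⟨_, _, rfl, rfl, k⟩⟩
    | imp φ ψ ih₁ ih₂ =>
      intro v
      rw [sat_imp, ih₁, ih₂]
      refine ⟨fun k => ?_, mp _ _ _ _⟩
      rcases t2 _ φ v with k1 | k1
      · exact mp _ _ _ _ (pr _ _ _ (.impI (.impI h1))) (k k1)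
      · exact mp _ _ _ _ (pr _ _ _ (.impI (.impI (.raa (.impE
          (.hyp (List.mem_cons_of_mem _ (List.mem_cons_of_mem _ List.mem_cons_self))) h1))))) k1
    | @all n φ ih =>
      intro v
      rw [sat_all, Quotient.forall]
      have e : ∀ a, (Fin.snoc (Quotient.mk S ∘ v) ⟦a⟧ : Fin (n + 1) → Quotient S) =
          Quotient.mk S ∘ Fin.snoc v a := fun a => (Fin.comp_snoc _ _ _).symm
      simp only [e, ih]
      refine ⟨fun k => (t3 _ φ v).elim id fun ⟨a, k1⟩ => absurd (mp _ _ _ _ k1 (k a)) (t1 _ _),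
        fun k a => ?_⟩
      have k1 : Tr (lift (all φ)) (Fin.snoc v a) := (rn _ _ _ _ _).2 (by
        rwa [show (Fin.snoc v a : Fin (n + 1) → ℕ) ∘ Fin.castSucc = v from funext fun i => by simp])
      have k2 : inst (φ.rename (liftR Fin.castSucc)) (Fin.last n) = φ := by
        rw [inst, rename_rename, rename_id]
        intro i
        refine Fin.lastCases ?_ (fun j => ?_) i <;> simp
      have k3 : Prf T [lift (all φ)] (inst (φ.rename (liftR Fin.castSucc)) (Fin.last n)) :=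
        .allE (Fin.last n) h0
      rw [k2] at k3
      exact mp _ _ _ _ (pr _ _ _ k3.impI) k1
  refine ⟨Quotient S, E, ⟨⟦0⟧⟩, inferInstance, fun ψ hψ => ?_⟩
  have k := (truth ψ Fin.elim0).2 (pr _ _ _ (rename_id ψ Fin.elim0 (fun i => i.elim0) ▸ .ax hψ))
  rwa [Subsingleton.elim (_ ∘ Fin.elim0) Fin.elim0] at k

end Vale.Agent.P129B.Syn
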