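import Vale.Agent.P129BJ.Complete
import Vale.Agent.P129BL.Meas2
import Vale.Agent.P129Z.Final

/-!
# The independence of the separable quotient problem, for formal proofs
-/

namespace Vale.Agent.P129B.Syn

open Vale.Agent.P323.Z Vale.Agent.P323.Z.Fml Vale.Agent.P129Z.S Vale.Agent.P129B.S

/-- The deduction theorem. -/
theorem Prf.ded {T : Set (Fml 0)} {χ : Fml 0} {n : ℕ} {Γ : List (Fml n)} {φ : Fml n}
    (h : Prf (insert χ T) Γ φ) :
    ∀ Δ : List (Fml n), Γ ⊆ Δ → χ.rename Fin.elim0 ∈ Δ → Prf T Δ φ := by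
  have key : ∀ {n : ℕ} {Δ : List (Fml n)}, χ.rename Fin.elim0 ∈ Δ →
      χ.rename Fin.elim0 ∈ Δ.map lift := by
    intro n Δ H
    refine List.mem_map.2 ⟨_, H, ?_⟩
    rw [lift, rename_rename, Subsingleton.elim (_ ∘ Fin.elim0) Fin.elim0]
  induction h with
  | ax h =>
    intro Δ _ H
    rcases h with rfl | h
    exacts [.hyp H, .ax h]
  | hyp h => exact fun Δ H _ => .hyp (H h)
  | impI _ ih =>
    exact fun Δ H K => .impI (ih _ (List.cons_subset_cons _ H) (List.mem_cons_of_mem _ K))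
  | impE _ _ ih₁ ih₂ => exact fun Δ H K => .impE (ih₁ Δ H K) (ih₂ Δ H K)
  | raa _ ih =>
    exact fun Δ H K => .raa (ih _ (List.cons_subset_cons _ H) (List.mem_cons_of_mem _ K))
  | allI _ ih => exact fun Δ H K => .allI (ih _ (List.map_subset _ H) (key K))
  | allE i _ ih => exact fun Δ H K => .allE i (ih Δ H K)
  | refl i => exact fun Δ _ _ => .refl i
  | subst φ i j _ _ ih₁ ih₂ => exact fun Δ H K => .subst φ i j (ih₁ Δ H K) (ih₂ Δ H K)
  | nonempty _ ih => exact fun Δ H K => .nonempty (ih _ (List.map_subset _ H) (key K))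

/-- A theory is consistent if and only if it has a nonempty model. -/
theorem con_iff (T : Set (Fml 0)) : Con T ↔
    ∃ (M : Type) (E : M → M → Prop), Nonempty M ∧ ∀ ψ ∈ T, ψ.Sat E Fin.elim0 :=
  ⟨fun h => let ⟨M, E, h1, _, h2⟩ := exists_model h; ⟨M, E, h1, h2⟩,
    fun ⟨_, _, _, h⟩ k => k.sound h Fin.elim0 fun _ h => absurd h List.not_mem_nil⟩

/-- **Soundness and completeness**: provable means true in all nonempty models. -/
theorem prf_iff (T : Set (Fml 0)) (φ : Fml 0) : Prf T [] φ ↔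
    ∀ (M : Type) (E : M → M → Prop), Nonempty M → (∀ ψ ∈ T, ψ.Sat E Fin.elim0) →
      φ.Sat E Fin.elim0 := by
  refine ⟨fun h M E _ hT => h.sound hT _ fun _ h => absurd h List.not_mem_nil, fun h => ?_⟩
  by_contra k
  obtain ⟨M, E, h1, h2⟩ := (con_iff (insert (neg φ) T)).1 fun c => k (Prf.raa
    (c.ded _ (List.nil_subset _) (by
      rw [rename_id _ _ fun i => i.elim0]; exact List.mem_cons_self)))
  exact h2 _ (Set.mem_insert _ _) (h M E h1 fun ψ hψ => h2 ψ (Set.mem_insert_of_mem _ hψ))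

theorem con_union_iff (S : Set (Fml 0)) : Con (ZFC ∪ S) ↔
    ∃ (M : Type) (E : M → M → Prop), IsZFCModel E ∧ ∀ ψ ∈ S, ψ.Sat E Fin.elim0 := by
  rw [con_iff]
  refine exists_congr fun M => exists_congr fun E => ?_
  constructor
  · exact fun h => ⟨(isZFCModel_iff E).2 fun ψ hψ => h.2 ψ (Or.inl hψ),
      fun ψ hψ => h.2 ψ (Or.inr hψ)⟩
  · exact fun h => ⟨⟨h.1.1.infinity.choose⟩,
      fun ψ hψ => hψ.elim ((isZFCModel_iff E).1 h.1 ψ) (h.2 ψ)⟩

theorem exists_sentences : ∃ sqR sqC meas : Fml 0, ∀ (M : Type) (E : M → M → Prop),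
    (sqR.Sat E Fin.elim0 ↔ SQReal E) ∧ (sqC.Sat E Fin.elim0 ↔ SQComplex E) ∧
      (meas.Sat E Fin.elim0 ↔ HasMeasurable E) := by
  obtain ⟨a, ha⟩ := P129Z.FO.exists_sentence_real.{0}
  obtain ⟨b, hb⟩ := P129Z.FO.exists_sentence_complex.{0}
  obtain ⟨c, hc⟩ := P129BL.exists_sentence_meas.{0}
  exact ⟨ofBF a, ofBF b, ofBF c, fun M E => ⟨(sat_ofBF E _ _).trans (ha M E),
    (sat_ofBF E _ _).trans (hb M E), (sat_ofBF E _ _).trans (hc M E)⟩⟩

/-- The independence, for all sentences which express the three statements. -/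
theorem syn_all (hB : ∀ (M : Type) (E : M → M → Prop), IsZFCModel E → HasMeasurable E →
      ∃ (N : Type) (E' : N → N → Prop), IsZFCModel E' ∧ SQReal E' ∧ SQComplex E')
    (sqR sqC meas : Fml 0) (h : ∀ (M : Type) (E : M → M → Prop),
      (sqR.Sat E Fin.elim0 ↔ SQReal E) ∧ (sqC.Sat E Fin.elim0 ↔ SQComplex E) ∧
        (meas.Sat E Fin.elim0 ↔ HasMeasurable E)) :
    Con (ZFC ∪ {neg sqR, neg sqC}) ∧ ¬ Prf ZFC [] sqR ∧ ¬ Prf ZFC [] sqC ∧
      (Con (ZFC ∪ {meas}) → Con (ZFC ∪ {sqR, sqC})) := by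
  obtain ⟨M, E, h1, h2, h3⟩ := P129Z.exists_model_not_sq
  have h4 : Nonempty M := ⟨h1.1.infinity.choose⟩
  refine ⟨(con_union_iff _).2 ⟨M, E, h1, ?_⟩,
    fun k => h2 ((h M E).1.1 ((prf_iff _ _).1 k M E h4 ((isZFCModel_iff E).1 h1))),
    fun k => h3 ((h M E).2.1.1 ((prf_iff _ _).1 k M E h4 ((isZFCModel_iff E).1 h1))), fun k => ?_⟩
  · rintro ψ (rfl | rfl)
    exacts [fun k => h2 ((h M E).1.1 k), fun k => h3 ((h M E).2.1.1 k)]
  · obtain ⟨M', E', k1, k2⟩ := (con_union_iff _).1 k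
    obtain ⟨N, E'', k3, k4, k5⟩ := hB M' E' k1 ((h M' E').2.2.1 (k2 _ rfl))
    refine (con_union_iff _).2 ⟨N, E'', k3, ?_⟩
    rintro ψ (rfl | rfl)
    exacts [(h N E'').1.2 k4, (h N E'').2.1.2 k5]

/-- The independence of the separable quotient problem, for formal proofs. -/
theorem syn_of (hB : ∀ (M : Type) (E : M → M → Prop), IsZFCModel E → HasMeasurable E →
      ∃ (N : Type) (E' : N → N → Prop), IsZFCModel E' ∧ SQReal E' ∧ SQComplex E') :
    ∃ sqR sqC meas : Fml 0, (∀ (M : Type) (E : M → M → Prop),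
      (sqR.Sat E Fin.elim0 ↔ SQReal E) ∧ (sqC.Sat E Fin.elim0 ↔ SQComplex E) ∧
        (meas.Sat E Fin.elim0 ↔ HasMeasurable E)) ∧
      Con (ZFC ∪ {neg sqR, neg sqC}) ∧ ¬ Prf ZFC [] sqR ∧ ¬ Prf ZFC [] sqC ∧
      (Con (ZFC ∪ {meas}) → Con (ZFC ∪ {sqR, sqC})) :=
  let ⟨a, b, c, h⟩ := exists_sentences
  ⟨a, b, c, h, syn_all hB a b c h⟩

end Vale.Agent.P129B.Syn
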