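import Vale.Agent.P323.Z.Sentences

/-!
# Formal proofs, consistency, and the axioms of ZFC

`Fml n`: formulas of set theory in the variables `x₀, …, xₙ₋₁`; `all φ` binds the last variable
`la`, and `up i` is the variable `i` below a quantifier.
-/

namespace Vale.Agent.P129B.Syn

open Vale.Agent.P323.Z Vale.Agent.P323.Z.Fml

/-- `φ`, read as a formula in one more variable -/
def lift {n : ℕ} (φ : Fml n) : Fml (n + 1) := φ.rename Fin.castSucc

/-- `φ` with the variable `xᵢ` in place of its last variable -/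
def inst {n : ℕ} (φ : Fml (n + 1)) (i : Fin n) : Fml n := φ.rename (Fin.snoc id i)

/-- Natural deduction for classical first-order logic with equality. `Prf T Γ φ`: the formula `φ`
has a formal proof from the sentences in `T` and the hypotheses in `Γ`. -/
inductive Prf (T : Set (Fml 0)) : ∀ {n : ℕ}, List (Fml n) → Fml n → Prop
  | ax {n : ℕ} {Γ : List (Fml n)} {ψ : Fml 0} : ψ ∈ T → Prf T Γ (ψ.rename Fin.elim0)
  | hyp {n : ℕ} {Γ : List (Fml n)} {φ : Fml n} : φ ∈ Γ → Prf T Γ φ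
  | impI {n : ℕ} {Γ : List (Fml n)} {φ ψ : Fml n} : Prf T (φ :: Γ) ψ → Prf T Γ (imp φ ψ)
  | impE {n : ℕ} {Γ : List (Fml n)} {φ ψ : Fml n} : Prf T Γ (imp φ ψ) → Prf T Γ φ → Prf T Γ ψ
  | raa {n : ℕ} {Γ : List (Fml n)} {φ : Fml n} : Prf T (neg φ :: Γ) bot → Prf T Γ φ
  | allI {n : ℕ} {Γ : List (Fml n)} {φ : Fml (n + 1)} : Prf T (Γ.map lift) φ → Prf T Γ (all φ)
  | allE {n : ℕ} {Γ : List (Fml n)} {φ : Fml (n + 1)} (i : Fin n) :
      Prf T Γ (all φ) → Prf T Γ (inst φ i)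
  | refl {n : ℕ} {Γ : List (Fml n)} (i : Fin n) : Prf T Γ (eq i i)
  | subst {n : ℕ} {Γ : List (Fml n)} (φ : Fml (n + 1)) (i j : Fin n) :
      Prf T Γ (eq i j) → Prf T Γ (inst φ i) → Prf T Γ (inst φ j)
  | nonempty {n : ℕ} {Γ : List (Fml n)} : Prf T (Γ.map lift) bot → Prf T Γ bot

/-- `T` is consistent. -/
def Con (T : Set (Fml 0)) : Prop := ¬ Prf T ([] : List (Fml 0)) bot

/-- universal closure -/
def clo : ∀ {n : ℕ}, Fml n → Fml 0
  | 0, φ => φ
  | _ + 1, φ => clo (all φ)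

/-- `∀ x y, (∀ z, z ∈ x ↔ z ∈ y) → x = y` -/
def extF : Fml 0 :=
  all (all (imp (all (iff (mem la (up (up la))) (mem la (up la)))) (eq (up la) la)))

/-- `∀ x, (∃ y, y ∈ x) → ∃ y, y ∈ x ∧ ∀ z, z ∈ x → z ∉ y` -/
def fndF : Fml 0 :=
  all (imp (ex (mem la (up la))) (ex (and (mem la (up la))
    (all (imp (mem la (up (up la))) (neg (mem la (up la))))))))

/-- `∀ x y, ∃ p, ∀ z, z ∈ p ↔ z = x ∨ z = y` -/
def pairF : Fml 0 :=
  all (all (ex (all (iff (mem la (up la)) (or (eq la (up (up (up la)))) (eq la (up (up la))))))))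

/-- `∀ x, ∃ u, ∀ z, z ∈ u ↔ ∃ y, y ∈ x ∧ z ∈ y` -/
def unionF : Fml 0 :=
  all (ex (all (iff (mem la (up la)) (ex (and (mem la (up (up (up la)))) (mem (up la) la))))))

/-- `∀ x, ∃ p, ∀ z, z ∈ p ↔ ∀ w, w ∈ z → w ∈ x` -/
def powF : Fml 0 :=
  all (ex (all (iff (mem la (up la)) (all (imp (mem la (up la)) (mem la (up (up (up la)))))))))

/-- `∃ w, (∃ e, e ∈ w ∧ ∀ z, z ∉ e) ∧ ∀ x, x ∈ w → ∃ s, s ∈ w ∧ ∀ z, z ∈ s ↔ z ∈ x ∨ z = x` -/
def infF : Fml 0 :=
  ex (and (ex (and (mem la (up la)) (all (neg (mem la (up la))))))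
    (all (imp (mem la (up la)) (ex (and (mem la (up (up la)))
      (all (iff (mem la (up la)) (or (mem la (up (up la))) (eq la (up (up la)))))))))))

/-- Separation for `φ(v, x)`: `∀ a, ∃ b, ∀ x, x ∈ b ↔ x ∈ a ∧ φ(v, x)` -/
def sepF {n : ℕ} (φ : Fml (n + 1)) : Fml n :=
  all (ex (all (iff (mem la (up la)) (and (mem la (up (up la)))
    (φ.rename (Fin.snoc (fun i => up (up (up i))) la))))))

/-- Replacement for `φ(v, x, y)`: `∀ a, (∀ x, x ∈ a → ∃ y, φ(v, x, y) ∧ ∀ z, φ(v, x, z) → z = y) →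
∃ b, ∀ y, y ∈ b ↔ ∃ x, x ∈ a ∧ φ(v, x, y)` -/
def repF {n : ℕ} (φ : Fml (n + 2)) : Fml n :=
  all (imp
    (all (imp (mem la (up la)) (ex (and
      (φ.rename (Fin.snoc (Fin.snoc (fun i => up (up (up i))) (up la) : Fin (n + 1) → _) la))
      (all (imp (φ.rename (Fin.snoc (Fin.snoc (fun i => up (up (up (up i)))) (up (up la)) :
        Fin (n + 1) → _) la)) (eq la (up la))))))))
    (ex (all (iff (mem la (up la)) (ex (and (mem la (up (up (up la))))
      (φ.rename (Fin.snoc (Fin.snoc (fun i => up (up (up (up i)))) la :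
        Fin (n + 1) → _) (up la)))))))))

/-- The axioms of ZFC. -/
def ZFC : Set (Fml 0) :=
  {extF, fndF, pairF, unionF, powF, infF, acF} ∪
    {ψ | ∃ n, ∃ φ : Fml (n + 1), ψ = clo (sepF φ)} ∪ {ψ | ∃ n, ∃ φ : Fml (n + 2), ψ = clo (repF φ)}

end Vale.Agent.P129B.Syn
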