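import Vale.Agent.P129BJ.Defs
import Vale.Agent.P129Z.FO

/-!
# Soundness; the models of the axioms of ZFC
-/

set_option linter.unusedSimpArgs false

namespace Vale.Agent.P129B.Syn

open Vale.Agent.P323.Z Vale.Agent.P323.Z.Fml Vale.Agent.P129Z.S

variable {M : Type*} (E : M → M → Prop)

theorem sat_lift {n : ℕ} (φ : Fml n) (v : Fin n → M) (x : M) :
    (lift φ).Sat E (Fin.snoc v x) ↔ φ.Sat E v := by
  rw [lift, sat_rename]
  exact iff_of_eq (congrArg _ (funext fun i => by simp))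

theorem sat_inst {n : ℕ} (φ : Fml (n + 1)) (i : Fin n) (v : Fin n → M) :
    (inst φ i).Sat E v ↔ φ.Sat E (Fin.snoc v (v i)) := by
  rw [inst, sat_rename, Fin.comp_snoc]
  rfl

variable {E} in
/-- **Soundness.** -/
theorem Prf.sound [Nonempty M] {T : Set (Fml 0)} (hT : ∀ ψ ∈ T, ψ.Sat E Fin.elim0) {n : ℕ}
    {Γ : List (Fml n)} {φ : Fml n} (h : Prf T Γ φ) :
    ∀ v : Fin n → M, (∀ ψ ∈ Γ, ψ.Sat E v) → φ.Sat E v := by
  have key : ∀ {n : ℕ} {Γ : List (Fml n)} {v : Fin n → M}, (∀ ψ ∈ Γ, ψ.Sat E v) → ∀ x : M,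
      ∀ ψ ∈ Γ.map lift, ψ.Sat E (Fin.snoc v x) := by
    intro n Γ v hv x ψ hψ
    obtain ⟨χ, h1, rfl⟩ := List.mem_map.1 hψ
    exact (sat_lift E χ v x).2 (hv χ h1)
  induction h with
  | ax h =>
    intro v _
    rw [sat_rename, Subsingleton.elim (v ∘ Fin.elim0) Fin.elim0]
    exact hT _ h
  | hyp h => exact fun v hv => hv _ h
  | impI _ ih => exact fun v hv h1 => ih v (List.forall_mem_cons.2 ⟨h1, hv⟩)
  | impE _ _ ih₁ ih₂ => exact fun v hv => ih₁ v hv (ih₂ v hv)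
  | raa _ ih => exact fun v hv => by_contra fun h1 => ih v (List.forall_mem_cons.2 ⟨h1, hv⟩)
  | allI _ ih => exact fun v hv x => ih _ (key hv x)
  | allE i _ ih => exact fun v hv => (sat_inst E _ i v).2 (ih v hv _)
  | refl i => exact fun _ _ => rfl
  | subst φ i j _ _ ih₁ ih₂ =>
    intro v hv
    have e : v i = v j := ih₁ v hv
    rw [sat_inst, ← e, ← sat_inst]
    exact ih₂ v hv
  | nonempty _ ih => exact fun v hv => ih _ (key hv (Classical.arbitrary M))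

theorem sat_clo : ∀ {n : ℕ} (φ : Fml n), (clo φ).Sat E Fin.elim0 ↔ ∀ v, φ.Sat E v
  | 0, φ => ⟨fun h v => Subsingleton.elim Fin.elim0 v ▸ h, fun h => h _⟩
  | n + 1, φ => by
    rw [clo, sat_clo (.all φ)]
    exact ⟨fun h v => Fin.snoc_init_self v ▸ h (Fin.init v) (v (Fin.last n)), fun h v x => h _⟩

theorem sat_sepF {n : ℕ} (φ : Fml (n + 1)) (v : Fin n → M) :
    (sepF φ).Sat E v ↔ ∀ a, ∃ b, ∀ x, E x b ↔ E x a ∧ φ.Sat E (Fin.snoc v x) := by
  simp only [sepF, sat_all, sat_ex, sat_iff, sat_and, sat_mem, sat_rename, Fin.comp_snoc]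
  simp only [Function.comp_def, Fin.snoc_castSucc, Fin.snoc_last]

theorem sat_repF {n : ℕ} (φ : Fml (n + 2)) (v : Fin n → M) :
    (repF φ).Sat E v ↔ ∀ a,
      (∀ x, E x a → ∃! y, φ.Sat E (Fin.snoc (Fin.snoc v x : Fin (n + 1) → M) y)) →
      ∃ b, ∀ y, E y b ↔ ∃ x, E x a ∧ φ.Sat E (Fin.snoc (Fin.snoc v x : Fin (n + 1) → M) y) := by
  simp only [repF, sat_all, sat_ex, sat_iff, sat_and, sat_imp, sat_eq, sat_mem, sat_rename,
    Fin.comp_snoc]
  simp only [Function.comp_def, Fin.snoc_castSucc, Fin.snoc_last, ExistsUnique]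

/-- The models of ZFC are the structures in which the axioms are true. -/
theorem isZFCModel_iff : IsZFCModel E ↔ ∀ ψ ∈ ZFC, ψ.Sat E Fin.elim0 := by
  have e1 : extF.Sat E Fin.elim0 ↔ ∀ x y, (∀ z, E z x ↔ E z y) → x = y := by
    simp only [extF, sat_all, sat_iff, sat_imp, sat_eq, sat_mem, Fin.snoc_castSucc, Fin.snoc_last]
  have e2 : fndF.Sat E Fin.elim0 ↔ ∀ x, (∃ y, E y x) → ∃ y, E y x ∧ ∀ z, E z x → ¬ E z y := by
    simp only [fndF, sat_all, sat_ex, sat_and, sat_imp, sat_neg, sat_mem, Fin.snoc_castSucc,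
      Fin.snoc_last]
  have e3 : pairF.Sat E Fin.elim0 ↔ ∀ x y, ∃ p, ∀ z, E z p ↔ z = x ∨ z = y := by
    simp only [pairF, sat_all, sat_ex, sat_iff, sat_or, sat_eq, sat_mem, Fin.snoc_castSucc,
      Fin.snoc_last]
  have e4 : unionF.Sat E Fin.elim0 ↔ ∀ x, ∃ u, ∀ z, E z u ↔ ∃ y, E y x ∧ E z y := by
    simp only [unionF, sat_all, sat_ex, sat_iff, sat_and, sat_mem, Fin.snoc_castSucc,
      Fin.snoc_last]
  have e5 : powF.Sat E Fin.elim0 ↔ ∀ x, ∃ p, ∀ z, E z p ↔ ∀ w, E w z → E w x := by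
    simp only [powF, sat_all, sat_ex, sat_iff, sat_imp, sat_mem, Fin.snoc_castSucc, Fin.snoc_last]
  have e6 : infF.Sat E Fin.elim0 ↔ ∃ w, (∃ e, E e w ∧ ∀ z, ¬ E z e) ∧
      ∀ x, E x w → ∃ s, E s w ∧ ∀ z, E z s ↔ E z x ∨ z = x := by
    simp only [infF, sat_all, sat_ex, sat_iff, sat_and, sat_or, sat_imp, sat_neg, sat_eq, sat_mem,
      Fin.snoc_castSucc, Fin.snoc_last]
  constructor
  · rintro ⟨h, hc⟩ ψ ((hψ | ⟨n, φ, rfl⟩) | ⟨n, φ, rfl⟩)
    · rcases hψ with rfl | rfl | rfl | rfl | rfl | rfl | rfl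
      exacts [e1.2 h.1, e2.2 h.2, e3.2 h.3, e4.2 h.4, e5.2 h.5, e6.2 h.6, (sat_acF E _).2 hc]
    · refine (sat_clo E _).2 fun v => (sat_sepF E _ v).2 fun a => ?_
      simpa only [P129Z.sat_toBF] using h.separation n (P129Z.toBF φ) v a
    · refine (sat_clo E _).2 fun v => (sat_repF E _ v).2 fun a => ?_
      simpa only [P129Z.sat_toBF] using h.replacement n (P129Z.toBF φ) v a
  · intro h
    refine ⟨⟨e1.1 (h _ (by simp [ZFC])), e2.1 (h _ (by simp [ZFC])),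
      e3.1 (h _ (by simp [ZFC])), e4.1 (h _ (by simp [ZFC])), e5.1 (h _ (by simp [ZFC])),
      e6.1 (h _ (by simp [ZFC])), fun n φ v a => ?_, fun n φ v a => ?_⟩,
      (sat_acF E _).1 (h _ (by simp [ZFC]))⟩
    · simpa only [sat_ofBF] using (sat_sepF E _ v).1
        ((sat_clo E _).1 (h _ (Or.inl (Or.inr ⟨n, ofBF φ, rfl⟩))) v) a
    · simpa only [sat_ofBF] using (sat_repF E _ v).1
        ((sat_clo E _).1 (h _ (Or.inr ⟨n, ofBF φ, rfl⟩)) v) a

end Vale.Agent.P129B.Syn
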